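/-
S0423 library, module C (calculus): umbrella import.
-/
import Crest.Agent.S0423Lib.CalcBasic
import Crest.Agent.S0423Lib.CalcV
import Crest.Agent.S0423Lib.CalcInner
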